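import Vale.Agent.P134.H377.Cov
import Vale.Agent.P134.LI.Defs

/-!
# P134 / LI-COV, part 4: the change of variables in the notation of `LI/Defs`
-/

set_option linter.all false

open MeasureTheory Set Filter Topology
open scoped ENNReal

namespace Vale.Agent.P134.H377
open Vale.Agent.P134 Vale.Agent.P134.SM Vale.Agent.P134.LI

section General

variable {n : ℕ} {φ : (Fin n → ℝ) → ℝ}

lemma pd_wn_gen (hφ : ContDiff ℝ 2 φ) {x : Fin n → ℝ} (h : 0 < gs φ x) (k : Fin n) :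
    pd k (wn φ) x = ∑ i, nu φ i x * pd k (pd i φ) x := by
  have hw : DifferentiableAt ℝ (wn φ) x :=
    ((contDiff_gs1 hφ).contDiffAt.sqrt h.ne').differentiableAt (by norm_num)
  have e : gs φ =ᶠ[𝓝 x] fun y => wn φ y ^ 2 := Eventually.of_forall fun y => (wn_sq φ y).symm
  have h1 : pd k (gs φ) x = 2 * wn φ x * pd k (wn φ) x := by
    rw [pd_congr e, pd_sq hw]
  have h2 := pd_gs hφ k x
  have h3 := (wn_pos h).ne'
  have h4 : ∑ i, pd i φ x * pd k (pd i φ) x = wn φ x * ∑ i, nu φ i x * pd k (pd i φ) x := by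
    rw [Finset.mul_sum]
    refine Finset.sum_congr rfl fun i _ => ?_
    rw [pd_eq_wn_mul_nu h i]; ring
  have h5 : wn φ x * pd k (wn φ) x = wn φ x * ∑ i, nu φ i x * pd k (pd i φ) x := by
    rw [← h4]; linarith
  exact mul_left_cancel₀ h3 h5

lemma pd_nu_gen (hφ : ContDiff ℝ 2 φ) {x : Fin n → ℝ} (h : 0 < gs φ x) (i j : Fin n) :
    wn φ x * pd j (nu φ i) x = pd j (pd i φ) x - nu φ i x * pd j (wn φ) x := by
  have hw : DifferentiableAt ℝ (wn φ) x :=
    ((contDiff_gs1 hφ).contDiffAt.sqrt h.ne').differentiableAt (by norm_num)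
  have h0 := (wn_pos h).ne'
  have e : pd j (nu φ i) x = pd j (fun y => pd i φ y / wn φ y) x := rfl
  rw [e, pd_div (dif_pd hφ i x) hw h0]
  unfold nu
  field_simp

/-- `aa` for a general function -/
noncomputable def ag (φ : (Fin n → ℝ) → ℝ) (i j : Fin n) (x : Fin n → ℝ) : ℝ :=
  pd j (nu φ i) x - (∑ k, pd k (nu φ i) x * nu φ k x) * nu φ j x

lemma wn_ag (hφ : ContDiff ℝ 2 φ) {x : Fin n → ℝ} (h : 0 < gs φ x) (i j : Fin n) :
    wn φ x * ag φ i j x = pd j (pd i φ) x - nu φ i x * pd j (wn φ) x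
      - nu φ j x * pd i (wn φ) x
      + nu φ i x * nu φ j x * ∑ k, pd k (wn φ) x * nu φ k x := by
  unfold ag
  have h1 : wn φ x * (pd j (nu φ i) x - (∑ k, pd k (nu φ i) x * nu φ k x) * nu φ j x)
      = wn φ x * pd j (nu φ i) x - (∑ k, (wn φ x * pd k (nu φ i) x) * nu φ k x) * nu φ j x := by
    have : ∑ k, (wn φ x * pd k (nu φ i) x) * nu φ k x
        = wn φ x * ∑ k, pd k (nu φ i) x * nu φ k x := by
      rw [Finset.mul_sum]
      exact Finset.sum_congr rfl fun k _ => by ring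
    rw [this]; ring
  rw [h1]
  simp_rw [pd_nu_gen hφ h]
  have h2 : ∑ k, (pd k (pd i φ) x - nu φ i x * pd k (wn φ) x) * nu φ k x
      = pd i (wn φ) x - nu φ i x * ∑ k, pd k (wn φ) x * nu φ k x := by
    have h3 : ∀ k, (pd k (pd i φ) x - nu φ i x * pd k (wn φ) x) * nu φ k x
        = nu φ k x * pd i (pd k φ) x - nu φ i x * (pd k (wn φ) x * nu φ k x) := by
      intro k
      rw [pd_comm hφ (i := k) (j := i)]; ring
    simp_rw [h3]
    rw [Finset.sum_sub_distrib, ← Finset.mul_sum, ← pd_wn_gen hφ h i]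
  rw [h2]; ring

lemma ag_symm (hφ : ContDiff ℝ 2 φ) {x : Fin n → ℝ} (h : 0 < gs φ x) (i j : Fin n) :
    ag φ i j x = ag φ j i x := by
  apply mul_left_cancel₀ (wn_pos h).ne'
  rw [wn_ag hφ h, wn_ag hφ h, pd_comm hφ (i := j) (j := i)]; ring

lemma sum_nu_mul_ag (hφ : ContDiff ℝ 2 φ) {x : Fin n → ℝ} (h : 0 < gs φ x) (j : Fin n) :
    ∑ i, nu φ i x * ag φ i j x = 0 := by
  unfold ag
  have h1 : ∀ i, nu φ i x * (pd j (nu φ i) x - (∑ k, pd k (nu φ i) x * nu φ k x) * nu φ j x)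
      = nu φ i x * pd j (nu φ i) x
        - (∑ k, nu φ k x * (nu φ i x * pd k (nu φ i) x)) * nu φ j x := by
    intro i
    have : ∑ k, nu φ k x * (nu φ i x * pd k (nu φ i) x)
        = nu φ i x * ∑ k, pd k (nu φ i) x * nu φ k x := by
      rw [Finset.mul_sum]
      exact Finset.sum_congr rfl fun k _ => by ring
    rw [this]; ring
  simp_rw [h1]
  rw [Finset.sum_sub_distrib, sum_nu_mul_pd_nu hφ h, ← Finset.sum_mul, Finset.sum_comm]
  simp_rw [← Finset.mul_sum]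
  have : ∀ k, nu φ k x * ∑ i, nu φ i x * pd k (nu φ i) x = 0 := by
    intro k; rw [sum_nu_mul_pd_nu hφ h, mul_zero]
  simp_rw [this]
  simp

/-- `tr (Dν)² = |A|²` -/
lemma tr_sq_eq (hφ : ContDiff ℝ 2 φ) {x : Fin n → ℝ} (h : 0 < gs φ x) :
    ∑ i, ∑ j, pd j (nu φ i) x * pd i (nu φ j) x = ∑ i, ∑ j, ag φ i j x ^ 2 := by
  set b : Fin n → ℝ := fun i => ∑ k, pd k (nu φ i) x * nu φ k x with hb
  have hN : ∀ i j, pd j (nu φ i) x = ag φ i j x + b i * nu φ j x := by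
    intro i j; unfold ag; ring
  have hbn : ∑ i, nu φ i x * b i = 0 := by
    simp only [hb, Finset.mul_sum]
    rw [Finset.sum_comm]
    apply Finset.sum_eq_zero
    intro k _
    have h2 : ∀ i, nu φ i x * (pd k (nu φ i) x * nu φ k x)
        = nu φ k x * (nu φ i x * pd k (nu φ i) x) := fun i => by ring
    simp_rw [h2]
    rw [← Finset.mul_sum, sum_nu_mul_pd_nu hφ h, mul_zero]
  have key : ∀ i j, pd j (nu φ i) x * pd i (nu φ j) x
      = ag φ i j x ^ 2 + (nu φ i x * ag φ i j x) * b j + (nu φ j x * ag φ j i x) * b i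
        + (nu φ i x * b i) * (nu φ j x * b j) := by
    intro i j
    rw [hN i j, hN j i, ag_symm hφ h j i]; ring
  simp_rw [key, Finset.sum_add_distrib]
  have s1 : ∑ i, ∑ j, (nu φ i x * ag φ i j x) * b j = 0 := by
    rw [Finset.sum_comm]
    apply Finset.sum_eq_zero
    intro j _
    rw [← Finset.sum_mul, sum_nu_mul_ag hφ h, zero_mul]
  have s2 : ∑ i, ∑ j, (nu φ j x * ag φ j i x) * b i = 0 := by
    apply Finset.sum_eq_zero
    intro i _
    rw [← Finset.sum_mul, sum_nu_mul_ag hφ h, zero_mul]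
  have s3 : ∑ i, ∑ j, (nu φ i x * b i) * (nu φ j x * b j) = 0 := by
    simp_rw [← Finset.mul_sum]
    rw [hbn]; simp
  rw [s1, s2, s3]; ring

end General

/-! ### the notation of `LI/Defs` -/

variable {u : R3 → ℝ}

lemma phi_c2 (hu : Sol u) (h1 : ∀ x, |u x| < 1) : ContDiff ℝ 2 (phi u) := by
  unfold phi
  have hc := hu.c2
  have ha : ∀ x, 1 + u x ≠ 0 := fun x => by have := abs_lt.1 (h1 x); linarith [this.1]
  have hb : ∀ x, 1 - u x ≠ 0 := fun x => by have := abs_lt.1 (h1 x); linarith [this.2]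
  exact contDiff_const.mul (((contDiff_const.add hc).log ha).sub ((contDiff_const.sub hc).log hb))

lemma gs_pos_of_rr {φ : R3 → ℝ} {x : R3} (h : 0 < wn φ x) : 0 < gs φ x :=
  Real.sqrt_pos.1 h

/-- the map `(x, t) ↦ (x + t n(x), φ x)` -/
noncomputable def Theta (u : R3 → ℝ) (z : R3 × ℝ) : R3 × ℝ := (xt u z.1 z.2, phi u z.1)

lemma Theta_eq : Theta u = Th (phi u) := rfl

lemma xt_eq (x : R3) (t : ℝ) : xt u x t = foot (phi u) x t := rfl

lemma Jac_eq_jj (hφ : ContDiff ℝ 2 (phi u)) {x : R3} (h : 0 < rr u x) (t : ℝ) :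
    Jac (phi u) t x = jj u x t := by
  have h0 := gs_pos_of_rr h
  rw [Jac_three hφ h0, tr_sq_eq hφ h0]
  rfl

theorem hasFDerivAt_Theta (hφ : ContDiff ℝ 2 (phi u)) {z : R3 × ℝ} (h : 0 < rr u z.1) :
    HasFDerivAt (Theta u) (Th' (phi u) z) z := hasFDerivAt_Th hφ (gs_pos_of_rr h)

theorem abs_det_Theta (hφ : ContDiff ℝ 2 (phi u)) {z : R3 × ℝ} (h : 0 < rr u z.1) :
    |(Th' (phi u) z).det| = rr u z.1 * |jj u z.1 z.2| := by
  rw [det_Th'_eq hφ (gs_pos_of_rr h), abs_neg, abs_mul, abs_of_nonneg (wn_nonneg _ _),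
    Jac_eq_jj hφ h]
  rfl

/-- (i) -/
theorem abs_det_fderiv_Theta (hφ : ContDiff ℝ 2 (phi u)) {z : R3 × ℝ} (h : 0 < rr u z.1) :
    |(fderiv ℝ (Theta u) z).det| = rr u z.1 * |jj u z.1 z.2| := by
  rw [(hasFDerivAt_Theta hφ h).fderiv]; exact abs_det_Theta hφ h

instance addHaar_R3R : (volume : Measure (R3 × ℝ)).IsAddHaarMeasure := by
  rw [Measure.volume_eq_prod]; infer_instance

section Image

variable {M : Set (R3 × ℝ)}

theorem measurableSet_image_Theta (hφ : ContDiff ℝ 2 (phi u)) (hM : MeasurableSet M)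
    (hinj : InjOn (Theta u) M) (hr : ∀ z ∈ M, 0 < rr u z.1) : MeasurableSet (Theta u '' M) :=
  measurable_image_of_fderivWithin hM
    (fun z hz => (hasFDerivAt_Theta hφ (hr z hz)).hasFDerivWithinAt) hinj

theorem lintegral_image_Theta_abs (hφ : ContDiff ℝ 2 (phi u)) (hM : MeasurableSet M)
    (hinj : InjOn (Theta u) M) (hr : ∀ z ∈ M, 0 < rr u z.1) (F : R3 × ℝ → ℝ≥0∞) :
    ∫⁻ z in Theta u '' M, F z
      = ∫⁻ z in M, ENNReal.ofReal (rr u z.1 * |jj u z.1 z.2|) * F (Theta u z) := by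
  rw [lintegral_image_eq_lintegral_abs_det_fderiv_mul volume hM
    (fun z hz => (hasFDerivAt_Theta hφ (hr z hz)).hasFDerivWithinAt) hinj]
  refine setLIntegral_congr_fun hM fun z hz => ?_
  rw [abs_det_Theta hφ (hr z hz)]

/-- (ii), lower integrals -/
theorem lintegral_image_Theta (hφ : ContDiff ℝ 2 (phi u)) (hM : MeasurableSet M)
    (hinj : InjOn (Theta u) M) (hr : ∀ z ∈ M, 0 < rr u z.1) (hj : ∀ z ∈ M, 0 ≤ jj u z.1 z.2)
    (F : R3 × ℝ → ℝ≥0∞) :
    ∫⁻ z in Theta u '' M, F z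
      = ∫⁻ z in M, ENNReal.ofReal (rr u z.1 * jj u z.1 z.2) * F (Theta u z) := by
  rw [lintegral_image_Theta_abs hφ hM hinj hr]
  refine setLIntegral_congr_fun hM fun z hz => ?_
  rw [abs_of_nonneg (hj z hz)]

/-- (ii), Bochner integrals -/
theorem integral_image_Theta (hφ : ContDiff ℝ 2 (phi u)) (hM : MeasurableSet M)
    (hinj : InjOn (Theta u) M) (hr : ∀ z ∈ M, 0 < rr u z.1) (hj : ∀ z ∈ M, 0 ≤ jj u z.1 z.2)
    (F : R3 × ℝ → ℝ) :
    ∫ z in Theta u '' M, F z = ∫ z in M, rr u z.1 * jj u z.1 z.2 * F (Theta u z) := by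
  rw [integral_image_eq_integral_abs_det_fderiv_smul volume hM
    (fun z hz => (hasFDerivAt_Theta hφ (hr z hz)).hasFDerivWithinAt) hinj]
  refine setIntegral_congr_fun hM fun z hz => ?_
  rw [abs_det_Theta hφ (hr z hz), abs_of_nonneg (hj z hz), smul_eq_mul]

/-- (ii), integrability -/
theorem integrableOn_image_Theta_iff (hφ : ContDiff ℝ 2 (phi u)) (hM : MeasurableSet M)
    (hinj : InjOn (Theta u) M) (hr : ∀ z ∈ M, 0 < rr u z.1) (hj : ∀ z ∈ M, 0 ≤ jj u z.1 z.2)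
    (F : R3 × ℝ → ℝ) :
    IntegrableOn F (Theta u '' M) ↔
      IntegrableOn (fun z => rr u z.1 * jj u z.1 z.2 * F (Theta u z)) M := by
  rw [integrableOn_image_iff_integrableOn_abs_det_fderiv_smul volume hM
    (fun z hz => (hasFDerivAt_Theta hφ (hr z hz)).hasFDerivWithinAt) hinj]
  refine integrableOn_congr_fun (fun z hz => ?_) hM
  rw [abs_det_Theta hφ (hr z hz), abs_of_nonneg (hj z hz), smul_eq_mul]

end Image

end Vale.Agent.P134.H377
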