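import Vale.Agent.P134.H377.Meas

/-!
# P134 / LI-COV, part 3: the Jacobian of `Th` and the change of variables
-/

open MeasureTheory Set Filter Topology
open scoped ENNReal

namespace Vale.Agent.P134.H377
open Vale.Agent.P134 Vale.Agent.P134.SM

variable {n : ℕ} {φ : (Fin n → ℝ) → ℝ}

/-- matrix of `Dν(x)` -/
noncomputable def Nm (φ : (Fin n → ℝ) → ℝ) (x : Fin n → ℝ) : Matrix (Fin n) (Fin n) ℝ :=
  Matrix.of fun i j => pd j (nu φ i) x

/-- `J(x, t) = det (1 + t Dν(x))` -/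
noncomputable def Jac (φ : (Fin n → ℝ) → ℝ) (t : ℝ) (x : Fin n → ℝ) : ℝ :=
  (1 + t • Nm φ x).det

lemma contDiff_gs1 (hφ : ContDiff ℝ 2 φ) : ContDiff ℝ 1 (gs φ) := by
  unfold gs
  exact ContDiff.sum fun i _ => (contDiff_pd_one hφ).pow 2

lemma cda_nu (hφ : ContDiff ℝ 2 φ) {x : Fin n → ℝ} (h : 0 < gs φ x) (i : Fin n) :
    ContDiffAt ℝ 1 (nu φ i) x := by
  have h1 : ContDiffAt ℝ 1 (wn φ) x := (contDiff_gs1 hφ).contDiffAt.sqrt h.ne'
  exact (contDiff_pd_one hφ).contDiffAt.div h1 (wn_pos h).ne'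

lemma diff_nu (hφ : ContDiff ℝ 2 φ) {x : Fin n → ℝ} (h : 0 < gs φ x) (i : Fin n) :
    DifferentiableAt ℝ (nu φ i) x := (cda_nu hφ h i).differentiableAt (by norm_num)

/-- the derivative of `Th` -/
noncomputable def Th' (φ : (Fin n → ℝ) → ℝ) (z : (Fin n → ℝ) × ℝ) :
    (Fin n → ℝ) × ℝ →L[ℝ] (Fin n → ℝ) × ℝ :=
  ContinuousLinearMap.prod
    (ContinuousLinearMap.pi fun i =>
      (ContinuousLinearMap.proj i : (Fin n → ℝ) →L[ℝ] ℝ).comp (ContinuousLinearMap.fst ℝ _ _)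
        + (z.2 • (fderiv ℝ (nu φ i) z.1).comp (ContinuousLinearMap.fst ℝ _ _)
        + nu φ i z.1 • ContinuousLinearMap.snd ℝ (Fin n → ℝ) ℝ))
    ((fderiv ℝ φ z.1).comp (ContinuousLinearMap.fst ℝ _ _))

theorem hasFDerivAt_Th (hφ : ContDiff ℝ 2 φ) {z : (Fin n → ℝ) × ℝ} (h : 0 < gs φ z.1) :
    HasFDerivAt (Th φ) (Th' φ z) z := by
  have h1 : HasFDerivAt (fun w : (Fin n → ℝ) × ℝ => φ w.1)
      ((fderiv ℝ φ z.1).comp (ContinuousLinearMap.fst ℝ _ _)) z := by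
    have := (hφ.differentiable (by norm_num) z.1).hasFDerivAt
    exact this.comp z hasFDerivAt_fst
  refine HasFDerivAt.prodMk ?_ h1
  rw [hasFDerivAt_pi]
  intro i
  have h2 : HasFDerivAt (fun w : (Fin n → ℝ) × ℝ => nu φ i w.1)
      ((fderiv ℝ (nu φ i) z.1).comp (ContinuousLinearMap.fst ℝ _ _)) z :=
    (diff_nu hφ h i).hasFDerivAt.comp z hasFDerivAt_fst
  have h3 : HasFDerivAt (fun w : (Fin n → ℝ) × ℝ => w.1 i)
      ((ContinuousLinearMap.proj i : (Fin n → ℝ) →L[ℝ] ℝ).comp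
        (ContinuousLinearMap.fst ℝ _ _)) z :=
    ((ContinuousLinearMap.proj i : (Fin n → ℝ) →L[ℝ] ℝ).hasFDerivAt).comp z hasFDerivAt_fst
  have h4 : HasFDerivAt (fun w : (Fin n → ℝ) × ℝ => w.2)
      (ContinuousLinearMap.snd ℝ (Fin n → ℝ) ℝ) z := hasFDerivAt_snd
  exact h3.add (h4.mul h2)

/-- the matrix of `Th'` -/
theorem det_Th' (z : (Fin n → ℝ) × ℝ) :
    (Th' φ z).det = (Matrix.fromBlocks (1 + z.2 • Nm φ z.1) (Matrix.of fun i (_ : Unit) => nu φ i z.1)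
      (Matrix.of fun (_ : Unit) j => pd j φ z.1) 0).det := by
  set b : Module.Basis (Fin n ⊕ Unit) ℝ ((Fin n → ℝ) × ℝ) :=
    (Pi.basisFun ℝ (Fin n)).prod (Module.Basis.singleton Unit ℝ) with hb
  rw [ContinuousLinearMap.det, ← LinearMap.det_toMatrix b]
  congr 1
  ext i j
  rw [LinearMap.toMatrix_apply]
  rcases i with i | i <;> rcases j with j | j
  · simp [hb, Th', Nm, Matrix.one_apply, Pi.single_apply, pd, Module.Basis.prod_apply]
  · simp [hb, Th', Nm, Module.Basis.prod_apply]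
  · simp [hb, Th', Nm, pd, Module.Basis.prod_apply]
  · simp [hb, Th', Nm, Module.Basis.prod_apply]

lemma ev_gs_pos (hφ : ContDiff ℝ 2 φ) {x : Fin n → ℝ} (h : 0 < gs φ x) :
    ∀ᶠ y in 𝓝 x, 0 < gs φ y :=
  (contDiff_gs1 hφ).continuous.continuousAt.eventually (lt_mem_nhds h)

lemma sum_nu_mul_pd_nu (hφ : ContDiff ℝ 2 φ) {x : Fin n → ℝ} (h : 0 < gs φ x) (j : Fin n) :
    ∑ i, nu φ i x * pd j (nu φ i) x = 0 := by
  have e : (fun y => ∑ i, nu φ i y ^ 2) =ᶠ[𝓝 x] fun _ => (1 : ℝ) := by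
    filter_upwards [ev_gs_pos hφ h] with y hy
    exact sum_nu_sq hy
  have h1 : pd j (fun y => ∑ i, nu φ i y ^ 2) x = 0 := by
    rw [pd_congr e, pd_const]
  have h3 : pd j (fun y => ∑ i, nu φ i y ^ 2) x = ∑ i, pd j (fun y => nu φ i y ^ 2) x :=
    pd_sum Finset.univ (F := fun i y => nu φ i y ^ 2) fun i _ => (diff_nu hφ h i).pow 2
  rw [h3] at h1
  have h2 : ∀ i, pd j (fun y => nu φ i y ^ 2) x = 2 * (nu φ i x * pd j (nu φ i) x) := by
    intro i
    rw [pd_sq (diff_nu hφ h i)]; ring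
  simp_rw [h2] at h1
  rw [← Finset.mul_sum] at h1
  linarith

lemma vecMul_one_add (hφ : ContDiff ℝ 2 φ) {x : Fin n → ℝ} (h : 0 < gs φ x) (t : ℝ) (j : Fin n) :
    ∑ i, nu φ i x * (1 + t • Nm φ x) i j = nu φ j x := by
  have : ∀ i, nu φ i x * (1 + t • Nm φ x) i j
      = nu φ i x * (1 : Matrix (Fin n) (Fin n) ℝ) i j
        + t * (nu φ i x * pd j (nu φ i) x) := by
    intro i
    simp only [Matrix.add_apply, Matrix.smul_apply, Nm, Matrix.of_apply, smul_eq_mul]; ring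
  simp_rw [this]
  rw [Finset.sum_add_distrib, ← Finset.mul_sum, sum_nu_mul_pd_nu hφ h j]
  simp [Matrix.one_apply]

theorem det_Th'_eq (hφ : ContDiff ℝ 2 φ) {z : (Fin n → ℝ) × ℝ} (h : 0 < gs φ z.1) :
    (Th' φ z).det = -(wn φ z.1 * Jac φ z.2 z.1) := by
  rw [det_Th']
  set M := 1 + z.2 • Nm φ z.1 with hM
  set c : Matrix (Fin n) Unit ℝ := Matrix.of fun i _ => nu φ i z.1 with hc
  set r : Matrix Unit (Fin n) ℝ := Matrix.of fun _ j => pd j φ z.1 with hr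
  have hmul : (Matrix.fromBlocks (1 : Matrix (Fin n) (Fin n) ℝ) 0
      (-r) (1 : Matrix Unit Unit ℝ)) * Matrix.fromBlocks M c r 0
      = Matrix.fromBlocks M c 0 (Matrix.of fun _ _ => -(wn φ z.1)) := by
    rw [Matrix.fromBlocks_multiply]
    congr 1
    · simp
    · simp
    · ext u j
      simp only [Matrix.add_apply, Matrix.mul_apply, Matrix.neg_apply, hr, Matrix.of_apply,
        Matrix.one_mul, Matrix.zero_apply]
      have h1 : ∀ i, -pd i φ z.1 * M i j = -(wn φ z.1) * (nu φ i z.1 * M i j) := by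
        intro i
        rw [pd_eq_wn_mul_nu h i]; ring
      simp_rw [h1]
      rw [← Finset.mul_sum, hM, vecMul_one_add hφ h, pd_eq_wn_mul_nu h j]; ring
    · ext u u'
      simp only [Matrix.add_apply, Matrix.mul_apply, Matrix.neg_apply, hr, hc, Matrix.of_apply,
        Matrix.zero_apply, Matrix.mul_zero, add_zero]
      have h1 : ∀ i, -pd i φ z.1 * nu φ i z.1 = -(wn φ z.1) * nu φ i z.1 ^ 2 := by
        intro i
        rw [pd_eq_wn_mul_nu h i]; ring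
      simp_rw [h1]
      rw [← Finset.mul_sum, sum_nu_sq h, mul_one]
  have hdet := congrArg Matrix.det hmul
  rw [Matrix.det_mul, Matrix.det_fromBlocks_zero₁₂, Matrix.det_fromBlocks_zero₂₁,
    Matrix.det_one, Matrix.det_one, one_mul, one_mul, Matrix.det_unique (n := Unit)] at hdet
  rw [hdet]
  unfold Jac
  rw [← hM]
  simp only [Matrix.of_apply]; ring

/-- the formula `J = 1 + t H + t² K` in `ℝ³` -/
theorem Jac_three {φ : (Fin 3 → ℝ) → ℝ} (hφ : ContDiff ℝ 2 φ) {x : Fin 3 → ℝ} (h : 0 < gs φ x)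
    (t : ℝ) : Jac φ t x = 1 + t * mc φ x + t ^ 2 *
      ((mc φ x ^ 2 - ∑ i, ∑ j, pd j (nu φ i) x * pd i (nu φ j) x) / 2) := by
  have h0 : (Nm φ x).det = 0 := by
    rw [← Matrix.exists_vecMul_eq_zero_iff]
    refine ⟨fun i => nu φ i x, ?_, ?_⟩
    · intro hc
      have := sum_nu_sq h
      have h2 : ∀ i, nu φ i x = 0 := fun i => congrFun hc i
      simp [h2] at this
    · funext j
      simpa [Matrix.vecMul, dotProduct, Nm] using sum_nu_mul_pd_nu hφ h j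
  unfold Jac mc
  rw [Matrix.det_fin_three] at h0 ⊢
  simp only [Matrix.add_apply, Matrix.smul_apply, smul_eq_mul, Matrix.one_apply, Fin.sum_univ_three,
    Nm, Matrix.of_apply] at h0 ⊢
  simp only [Fin.isValue, ↓reduceIte, zero_ne_one, one_ne_zero, Fin.reduceEq, zero_add] at h0 ⊢
  linear_combination t ^ 3 * h0

/-- **Change of variables (MIS-a), nonnegative functions.** -/
theorem lintegral_Near_eq (hφ : ContDiff ℝ 2 φ) {L : ℝ} (F : (Fin n → ℝ) × ℝ → ℝ≥0∞)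
    (hF : ∀ z, F z ≠ 0 → ∀ x, φ x = z.2 → ed x z.1 ≤ L → 0 < gs φ x) :
    ∫⁻ z in Near φ L, F z = ∫⁻ z in V0 φ ∩ {z | |z.2| ≤ L},
      ENNReal.ofReal (wn φ z.1 * |Jac φ z.2 z.1|) * F (Th φ z) := by
  have : (volume : Measure ((Fin n → ℝ) × ℝ)).IsAddHaarMeasure := by
    rw [Measure.volume_eq_prod]; infer_instance
  have hφ1 : ContDiff ℝ 1 φ := hφ.of_le (by norm_num)
  set W : Set ((Fin n → ℝ) × ℝ) := V0 φ ∩ {z | |z.2| ≤ L} with hW
  have hWm : MeasurableSet W :=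
    (measurableSet_V0 hφ1).inter (measurableSet_le (by fun_prop) measurable_const)
  have hgs : ∀ z ∈ W, 0 < gs φ z.1 := fun z hz => (V0_subset_V hz.1).1
  have hder : ∀ z ∈ W, HasFDerivWithinAt (Th φ) (Th' φ z) W z := fun z hz =>
    (hasFDerivAt_Th hφ (hgs z hz)).hasFDerivWithinAt
  have hinj : InjOn (Th φ) W := injOn_Th.mono inter_subset_left
  have hI : MeasurableSet (Th φ '' W) := measurable_image_of_fderivWithin hWm hder hinj
  have hIS : Th φ '' W ⊆ Near φ L := by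
    rintro _ ⟨z, hz, rfl⟩
    exact Th_mem_Near (V0_subset_V hz.1) hz.2
  have hnull : volume (Th φ '' (V φ \ V0 φ)) = 0 := by
    apply addHaar_image_eq_zero_of_differentiableOn_of_addHaar_eq_zero _ _ (volume_V_diff_V0 hφ1)
    intro z hz
    exact (hasFDerivAt_Th hφ hz.1.1).differentiableAt.differentiableWithinAt
  have hzero : ∫⁻ z in Near φ L \ Th φ '' W, F z = 0 := by
    have hae : ∀ᵐ z ∂(volume.restrict (Near φ L \ Th φ '' W)), F z = 0 := by
      rw [ae_restrict_iff' ((isClosed_Near hφ.continuous L).measurableSet.diff hI)]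
      have : ∀ᵐ z ∂(volume : Measure ((Fin n → ℝ) × ℝ)), z ∉ Th φ '' (V φ \ V0 φ) :=
        compl_mem_ae_iff.2 hnull
      filter_upwards [this] with z hz hzS
      by_contra hne
      obtain ⟨w, hwV, hwL, rfl⟩ := exists_mem_V hφ1 hzS.1 (hF z hne)
      by_cases hw0 : w ∈ V0 φ
      · exact hzS.2 ⟨w, ⟨hw0, hwL⟩, rfl⟩
      · exact hz ⟨w, ⟨hwV, hw0⟩, rfl⟩
    rw [lintegral_congr_ae hae, lintegral_zero]
  have hsplit : ∫⁻ z in Near φ L, F z
      = (∫⁻ z in Th φ '' W, F z) + ∫⁻ z in Near φ L \ Th φ '' W, F z := by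
    rw [← lintegral_inter_add_sdiff F (Near φ L) hI, inter_eq_right.2 hIS]
  rw [hsplit, hzero, add_zero, lintegral_image_eq_lintegral_abs_det_fderiv_mul volume hWm hder hinj]
  refine setLIntegral_congr_fun hWm fun z hz => ?_
  rw [det_Th'_eq hφ (hgs z hz), abs_neg, abs_mul, abs_of_nonneg (wn_nonneg _ _)]

end Vale.Agent.P134.H377
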