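import Mathlib
import Vale.Agent.P134.SM.Nu2

/-!
# P134 / LI-COV, part 1: nearest points on level sets

`V φ` = pairs `(x, t)` such that `x` is a nearest point of its level set to `x + t ν(x)`,
`V0 φ` = the pairs which stay in `V φ` when `t` is multiplied by some `a > 1`.
-/

open MeasureTheory Set Filter Topology
open scoped ENNReal

namespace Vale.Agent.P134.H377
open Vale.Agent.P134 Vale.Agent.P134.SM

variable {n : ℕ} {φ : (Fin n → ℝ) → ℝ}

/-- Euclidean distance -/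
noncomputable def ed (x y : Fin n → ℝ) : ℝ := Real.sqrt (∑ i, (x i - y i) ^ 2)

lemma ed_nonneg (x y : Fin n → ℝ) : 0 ≤ ed x y := Real.sqrt_nonneg _

lemma ed_sq (x y : Fin n → ℝ) : ed x y ^ 2 = ∑ i, (x i - y i) ^ 2 :=
  Real.sq_sqrt (Finset.sum_nonneg fun _ _ => sq_nonneg _)

lemma ed_eq_dist (x y : Fin n → ℝ) :
    ed x y = dist (WithLp.toLp 2 x : EuclideanSpace ℝ (Fin n)) (WithLp.toLp 2 y) := by
  rw [EuclideanSpace.dist_eq]
  unfold ed
  congr 1
  refine Finset.sum_congr rfl fun i _ => ?_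
  rw [Real.dist_eq, sq_abs]

lemma ed_comm (x y : Fin n → ℝ) : ed x y = ed y x := by
  rw [ed_eq_dist, ed_eq_dist, dist_comm]

lemma ed_self (x : Fin n → ℝ) : ed x x = 0 := by
  rw [ed_eq_dist, dist_self]

lemma ed_triangle (x y z : Fin n → ℝ) : ed x z ≤ ed x y + ed y z := by
  rw [ed_eq_dist, ed_eq_dist, ed_eq_dist]; exact dist_triangle _ _ _

lemma abs_sub_le_ed (x y : Fin n → ℝ) (i : Fin n) : |x i - y i| ≤ ed x y := by
  apply Real.abs_le_sqrt
  exact Finset.single_le_sum (f := fun i => (x i - y i) ^ 2) (fun i _ => sq_nonneg _)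
    (Finset.mem_univ i)

lemma continuous_ed : Continuous fun z : (Fin n → ℝ) × (Fin n → ℝ) => ed z.1 z.2 := by
  unfold ed
  fun_prop

lemma norm_sub_le_ed (x y : Fin n → ℝ) : ‖x - y‖ ≤ ed x y := by
  rw [pi_norm_le_iff_of_nonneg (ed_nonneg _ _)]
  intro i
  rw [Pi.sub_apply, Real.norm_eq_abs]
  exact abs_sub_le_ed x y i

lemma isCompact_ball_ed (x : Fin n → ℝ) (L : ℝ) : IsCompact {y | ed y x ≤ L} := by
  refine (isCompact_closedBall x L).of_isClosed_subset ?_ ?_
  · exact isClosed_le (continuous_ed.comp (by fun_prop : Continuous fun y : Fin n → ℝ => (y, x)))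
      continuous_const
  · intro y hy
    rw [Metric.mem_closedBall, dist_eq_norm]
    exact (norm_sub_le_ed y x).trans hy

/-- the point `x + t ν(x)` -/
noncomputable def foot (φ : (Fin n → ℝ) → ℝ) (x : Fin n → ℝ) (t : ℝ) : Fin n → ℝ :=
  fun i => x i + t * nu φ i x

/-- `(x, t) ↦ (x + t ν(x), φ x)` -/
noncomputable def Th (φ : (Fin n → ℝ) → ℝ) (z : (Fin n → ℝ) × ℝ) : (Fin n → ℝ) × ℝ :=
  (foot φ z.1 z.2, φ z.1)

/-- `x` is a nearest point of its level set to `x + t ν(x)` -/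
def V (φ : (Fin n → ℝ) → ℝ) : Set ((Fin n → ℝ) × ℝ) :=
  {z | 0 < gs φ z.1 ∧ ∀ y, φ y = φ z.1 → |z.2| ≤ ed y (foot φ z.1 z.2)}

/-- the same for some larger multiple of `t` -/
def V0 (φ : (Fin n → ℝ) → ℝ) : Set ((Fin n → ℝ) × ℝ) :=
  {z | ∃ a : ℝ, 1 < a ∧ (z.1, a * z.2) ∈ V φ}

/-- points at distance `≤ L` from the level set `{φ = z.2}` -/
def Near (φ : (Fin n → ℝ) → ℝ) (L : ℝ) : Set ((Fin n → ℝ) × ℝ) :=
  {z | ∃ x, φ x = z.2 ∧ ed x z.1 ≤ L}

lemma foot_zero (x : Fin n → ℝ) : foot φ x 0 = x := by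
  funext i; simp [foot]

lemma ed_foot_foot {x : Fin n → ℝ} (h : 0 < gs φ x) (s t : ℝ) :
    ed (foot φ x s) (foot φ x t) = |s - t| := by
  unfold ed foot
  have : ∑ i, (x i + s * nu φ i x - (x i + t * nu φ i x)) ^ 2 = (s - t) ^ 2 := by
    have h1 : ∀ i, (x i + s * nu φ i x - (x i + t * nu φ i x)) ^ 2
        = (s - t) ^ 2 * nu φ i x ^ 2 := fun i => by ring
    simp_rw [h1]
    rw [← Finset.mul_sum, sum_nu_sq h, mul_one]
  rw [this, Real.sqrt_sq_eq_abs]

lemma ed_foot {x : Fin n → ℝ} (h : 0 < gs φ x) (t : ℝ) : ed x (foot φ x t) = |t| := by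
  have := ed_foot_foot h 0 t
  rwa [foot_zero, zero_sub, abs_neg] at this

lemma mem_V_scale {x : Fin n → ℝ} {t b : ℝ} (h : (x, t) ∈ V φ) (hb0 : 0 ≤ b) (hb1 : b ≤ 1) :
    (x, b * t) ∈ V φ := by
  refine ⟨h.1, fun y hy => ?_⟩
  have h1 := h.2 y hy
  have h2 := ed_triangle y (foot φ x (b * t)) (foot φ x t)
  rw [ed_foot_foot h.1] at h2
  have h3 : |b * t - t| = (1 - b) * |t| := by
    rw [show b * t - t = -((1 - b) * t) by ring, abs_neg, abs_mul, abs_of_nonneg (by linarith)]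
  have h4 : |b * t| = b * |t| := by rw [abs_mul, abs_of_nonneg hb0]
  rw [h3] at h2
  simp only at h1 ⊢
  rw [h4]
  nlinarith

lemma V0_subset_V : V0 φ ⊆ V φ := by
  rintro ⟨x, t⟩ ⟨a, ha, h⟩
  have ha0 : 0 < a := by linarith
  have := mem_V_scale h (inv_nonneg.2 ha0.le) (inv_le_one_of_one_le₀ ha.le)
  rwa [← mul_assoc, inv_mul_cancel₀ ha0.ne', one_mul] at this

lemma zero_mem_V0 {x : Fin n → ℝ} (h : 0 < gs φ x) : (x, (0 : ℝ)) ∈ V0 φ := by
  refine ⟨2, one_lt_two, h, fun y _ => ?_⟩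
  simp [ed_nonneg]

/-- points of `V0` in terms of radii -/
lemma mem_V0_of_lt {x : Fin n → ℝ} {t t' : ℝ} (h : (x, t') ∈ V φ) (ht : 0 < t ∧ t < t' ∨ t' < t ∧ t < 0) :
    (x, t) ∈ V0 φ := by
  have ht0 : t ≠ 0 := by rcases ht with h | h <;> [exact h.1.ne'; exact h.2.ne]
  refine ⟨t' / t, ?_, ?_⟩
  · rcases ht with h | h
    · rw [lt_div_iff₀ h.1, one_mul]; exact h.2
    · rw [lt_div_iff_of_neg h.2, one_mul]; exact h.1
  · simp only
    rwa [div_mul_cancel₀ _ ht0]

theorem injOn_Th : InjOn (Th φ) (V0 φ) := by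
  rintro ⟨x, t⟩ hx ⟨y, t'⟩ hy heq
  have hxV := V0_subset_V hx
  have hyV := V0_subset_V hy
  obtain ⟨a, ha, hxa⟩ := hx
  simp only [Th, Prod.mk.injEq] at heq
  obtain ⟨hf, hφ⟩ := heq
  have h1 : |t| ≤ |t'| := by
    have := hxV.2 y hφ.symm
    simp only at this
    rwa [hf, ed_foot hyV.1] at this
  have h2 : |t'| ≤ |t| := by
    have := hyV.2 x hφ
    simp only at this
    rwa [← hf, ed_foot hxV.1] at this
  have habs : |t| = |t'| := le_antisymm h1 h2
  have hxy : x = y := by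
    by_cases ht : t = 0
    · have ht' : t' = 0 := by rw [ht, abs_zero] at habs; exact abs_eq_zero.1 habs.symm
      rw [ht, ht', foot_zero, foot_zero] at hf
      exact hf
    · have e1 : ∑ i, (y i - foot φ x t i) ^ 2 = t ^ 2 := by
        rw [← ed_sq, hf, ed_foot hyV.1, sq_abs, ← sq_abs, ← habs, sq_abs]
      have e2 : a ^ 2 * t ^ 2 ≤ ∑ i, (y i - foot φ x (a * t) i) ^ 2 := by
        rw [← ed_sq, ← mul_pow, ← sq_abs (a * t)]
        have := hxa.2 y hφ.symm
        simp only at this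
        exact pow_le_pow_left₀ (abs_nonneg _) this 2
      have e3 : ∑ i, (y i - foot φ x (a * t) i) ^ 2
          = ∑ i, (y i - foot φ x t i) ^ 2
            - 2 * (a - 1) * t * ∑ i, (y i - foot φ x t i) * nu φ i x
            + (a - 1) ^ 2 * t ^ 2 * ∑ i, nu φ i x ^ 2 := by
        rw [Finset.mul_sum, Finset.mul_sum, ← Finset.sum_sub_distrib, ← Finset.sum_add_distrib]
        refine Finset.sum_congr rfl fun i _ => ?_
        unfold foot; ring
      have e4 : ∑ i, (y i - x i) ^ 2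
          = ∑ i, (y i - foot φ x t i) ^ 2
            + 2 * t * ∑ i, (y i - foot φ x t i) * nu φ i x
            + t ^ 2 * ∑ i, nu φ i x ^ 2 := by
        rw [Finset.mul_sum, Finset.mul_sum, ← Finset.sum_add_distrib, ← Finset.sum_add_distrib]
        refine Finset.sum_congr rfl fun i _ => ?_
        unfold foot; ring
      rw [sum_nu_sq hxV.1] at e3 e4
      rw [e1] at e3 e4
      rw [e3] at e2
      set q := ∑ i, (y i - foot φ x t i) * nu φ i x
      have ha1 : 0 < a - 1 := by linarith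
      have e5 : (a - 1) * (t ^ 2 + t * q) ≤ 0 := by nlinarith
      have e6 : t ^ 2 + t * q ≤ 0 := by
        by_contra hcon
        push Not at hcon
        have := mul_pos ha1 hcon
        linarith
      have e7 : ∑ i, (y i - x i) ^ 2 ≤ 0 := by rw [e4]; linarith
      have e8 : ∑ i, (y i - x i) ^ 2 = 0 :=
        le_antisymm e7 (Finset.sum_nonneg fun i _ => sq_nonneg _)
      rw [Finset.sum_eq_zero_iff_of_nonneg fun i _ => sq_nonneg _] at e8
      funext i
      have := e8 i (Finset.mem_univ i)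
      have h0 := pow_eq_zero_iff (two_ne_zero) |>.1 this
      linarith
  subst hxy
  have htt : t = t' := by
    have := ed_foot_foot hxV.1 t t'
    rw [hf, ed_self] at this
    have := abs_eq_zero.1 this.symm
    linarith
  rw [htt]

/-- nearest points have the form required in `V` -/
theorem exists_mem_V (hφ : ContDiff ℝ 1 φ) {L : ℝ} {z : (Fin n → ℝ) × ℝ}
    (hz : z ∈ Near φ L) (hcrit : ∀ x, φ x = z.2 → ed x z.1 ≤ L → 0 < gs φ x) :
    ∃ w ∈ V φ, |w.2| ≤ L ∧ Th φ w = z := by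
  obtain ⟨x', s⟩ := z
  have hK : IsCompact {y | φ y = s ∧ ed y x' ≤ L} := by
    have : {y | φ y = s ∧ ed y x' ≤ L} = {y | φ y = s} ∩ {y | ed y x' ≤ L} := rfl
    rw [this]
    exact (isCompact_ball_ed x' L).inter_left (isClosed_eq hφ.continuous continuous_const)
  obtain ⟨x1, hx1⟩ := hz
  have hcont : ContinuousOn (fun y => ed y x') {y | φ y = s ∧ ed y x' ≤ L} :=
    (continuous_ed.comp (by fun_prop : Continuous fun y : Fin n → ℝ => (y, x'))).continuousOn
  obtain ⟨x0, hx0, hmin⟩ := hK.exists_isMinOn ⟨x1, hx1⟩ hcont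
  have hmin' : ∀ y, φ y = s → ed x0 x' ≤ ed y x' := by
    intro y hy
    by_cases h : ed y x' ≤ L
    · exact hmin ⟨hy, h⟩
    · exact hx0.2.trans (not_le.1 h).le
  have hg : 0 < gs φ x0 := hcrit x0 hx0.1 hx0.2
  have hstr : HasStrictFDerivAt φ (fderiv ℝ φ x0) x0 :=
    hφ.contDiffAt.hasStrictFDerivAt (by norm_num)
  have hq : ContDiff ℝ 1 (fun y : Fin n → ℝ => ∑ i, (y i - x' i) ^ 2) := by fun_prop
  have hstr2 : HasStrictFDerivAt (fun y : Fin n → ℝ => ∑ i, (y i - x' i) ^ 2)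
      (fderiv ℝ (fun y : Fin n → ℝ => ∑ i, (y i - x' i) ^ 2) x0) x0 :=
    hq.contDiffAt.hasStrictFDerivAt (by norm_num)
  have hext : IsLocalExtrOn (fun y : Fin n → ℝ => ∑ i, (y i - x' i) ^ 2) {y | φ y = φ x0} x0 := by
    left
    apply IsMinOn.localize
    intro y hy
    have h1 := hmin' y (by rw [← hx0.1]; exact hy)
    have h2 := pow_le_pow_left₀ (ed_nonneg _ _) h1 2
    rw [ed_sq, ed_sq] at h2
    exact h2
  obtain ⟨a, b, hab, hlin⟩ := hext.exists_multipliers_of_hasStrictFDerivAt_1d hstr hstr2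
  have hpd : ∀ i, pd i (fun y : Fin n → ℝ => ∑ i, (y i - x' i) ^ 2) x0 = 2 * (x0 i - x' i) := by
    intro i
    rw [pd_sum]
    · have : ∀ j, pd i (fun y : Fin n → ℝ => (y j - x' j) ^ 2) x0
          = if j = i then 2 * (x0 i - x' i) else 0 := by
        intro j
        rw [pd_sq (by fun_prop)]
        rw [pd_sub (by fun_prop) (by fun_prop), pd_coord, pd_const]
        split_ifs with h
        · subst h; ring
        · ring
      simp_rw [this]
      simp
    · intro j _; fun_prop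
  have hcomp : ∀ i, a * pd i φ x0 + b * (2 * (x0 i - x' i)) = 0 := by
    intro i
    have := congrArg (fun l : (Fin n → ℝ) →L[ℝ] ℝ => l (Pi.single i 1)) hlin
    simp only [_root_.add_apply, _root_.smul_apply, smul_eq_mul,
      _root_.zero_apply] at this
    rw [← hpd i]
    exact this
  have hb : b ≠ 0 := by
    rintro rfl
    have ha : a ≠ 0 := by
      rintro rfl; exact hab rfl
    have : gs φ x0 = 0 := by
      unfold gs
      apply Finset.sum_eq_zero
      intro i _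
      have := hcomp i
      rw [zero_mul, add_zero] at this
      rw [(mul_eq_zero.1 this).resolve_left ha]; norm_num
    rw [this] at hg; exact lt_irrefl _ hg
  have hw : 0 < wn φ x0 := wn_pos hg
  have hfoot : foot φ x0 (a / (2 * b) * wn φ x0) = x' := by
    funext i
    unfold foot nu
    have := hcomp i
    field_simp
    linarith
  refine ⟨(x0, a / (2 * b) * wn φ x0), ⟨hg, fun y hy => ?_⟩, ?_, ?_⟩
  · simp only at hy ⊢
    have h1 := hmin' y (by rw [← hx0.1]; exact hy)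
    rw [← ed_foot hg, hfoot]; exact h1
  · simp only
    rw [← ed_foot hg, hfoot]; exact hx0.2
  · unfold Th
    simp only
    rw [hfoot, hx0.1]

lemma Th_mem_Near {z : (Fin n → ℝ) × ℝ} {L : ℝ} (hz : z ∈ V φ) (hL : |z.2| ≤ L) :
    Th φ z ∈ Near φ L :=
  ⟨z.1, rfl, by
    show ed z.1 (foot φ z.1 z.2) ≤ L
    rw [ed_foot hz.1]; exact hL⟩

end Vale.Agent.P134.H377
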