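import Vale.Agent.P134.H377.Foot

/-!
# P134 / LI-COV, part 2: measurability of `V`, `V0`, and `V \ V0` is a null set
-/

open MeasureTheory Set Filter Topology
open scoped ENNReal

namespace Vale.Agent.P134.H377
open Vale.Agent.P134 Vale.Agent.P134.SM

variable {n : ℕ} {φ : (Fin n → ℝ) → ℝ}

theorem isClosed_Near (hφ : Continuous φ) (L : ℝ) : IsClosed (Near φ L) := by
  rw [← isSeqClosed_iff_isClosed]
  intro z z0 hz hlim
  choose y hy using hz
  have h1 : Tendsto (fun k => (z k).1) atTop (𝓝 z0.1) := (continuous_fst.tendsto z0).comp hlim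
  have h2 : Tendsto (fun k => (z k).2) atTop (𝓝 z0.2) := (continuous_snd.tendsto z0).comp hlim
  have hb : ∀ᶠ k in atTop, y k ∈ Metric.closedBall z0.1 (1 + L) := by
    have : ∀ᶠ k in atTop, dist (z k).1 z0.1 < 1 := Metric.tendsto_nhds.1 h1 1 one_pos
    filter_upwards [this] with k hk
    rw [Metric.mem_closedBall]
    have h3 : dist (y k) (z k).1 ≤ L := by
      rw [dist_eq_norm]; exact (norm_sub_le_ed _ _).trans (hy k).2
    linarith [dist_triangle (y k) (z k).1 z0.1]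
  obtain ⟨a, -, ψ, hψ, hlimψ⟩ := (isCompact_closedBall z0.1 (1 + L)).tendsto_subseq' hb.frequently
  refine ⟨a, ?_, ?_⟩
  · have e1 : Tendsto (fun j => φ (y (ψ j))) atTop (𝓝 (φ a)) := (hφ.tendsto a).comp hlimψ
    have e2 : Tendsto (fun j => φ (y (ψ j))) atTop (𝓝 z0.2) := by
      have : (fun j => φ (y (ψ j))) = fun j => (z (ψ j)).2 := by
        funext j; exact (hy (ψ j)).1
      rw [this]; exact h2.comp hψ.tendsto_atTop
    exact tendsto_nhds_unique e1 e2
  · have e1 : Tendsto (fun j => ed (y (ψ j)) (z (ψ j)).1) atTop (𝓝 (ed a z0.1)) := by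
      have := (continuous_ed.tendsto (a, z0.1)).comp
        (hlimψ.prodMk_nhds (h1.comp hψ.tendsto_atTop))
      exact this
    exact le_of_tendsto e1 (Eventually.of_forall fun j => (hy (ψ j)).2)

/-- distance to the level set `{φ = z.2}` -/
noncomputable def D (φ : (Fin n → ℝ) → ℝ) (z : (Fin n → ℝ) × ℝ) : ℝ≥0∞ :=
  ⨅ (y : Fin n → ℝ) (_ : φ y = z.2), ENNReal.ofReal (ed y z.1)

theorem measurable_D (hφ : Continuous φ) : Measurable (D φ) := by
  apply measurable_of_Iio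
  intro c
  have : D φ ⁻¹' Iio c = ⋃ (q : ℚ) (_ : 0 ≤ q ∧ ENNReal.ofReal (q : ℝ) < c), Near φ (q : ℝ) := by
    ext z
    simp only [mem_preimage, mem_Iio, D, iInf_lt_iff, mem_iUnion, exists_prop, Near, mem_ofPred_eq]
    constructor
    · rintro ⟨y, hy, hlt⟩
      obtain ⟨q, hq0, hq1, hq2⟩ := ENNReal.lt_iff_exists_rat_btwn.1 hlt
      refine ⟨q, ⟨hq0, hq2⟩, y, hy, ?_⟩
      have : ENNReal.ofReal (ed y z.1) ≤ ENNReal.ofReal (q : ℝ) := hq1.le
      exact (ENNReal.ofReal_le_ofReal_iff (by exact_mod_cast hq0)).1 this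
    · rintro ⟨q, ⟨hq0, hq1⟩, y, hy, hle⟩
      exact ⟨y, hy, (ENNReal.ofReal_le_ofReal hle).trans_lt hq1⟩
  rw [this]
  refine MeasurableSet.iUnion fun q => MeasurableSet.iUnion fun _ => ?_
  exact (isClosed_Near hφ _).measurableSet

theorem mem_V_iff {z : (Fin n → ℝ) × ℝ} :
    z ∈ V φ ↔ 0 < gs φ z.1 ∧ ENNReal.ofReal |z.2| ≤ D φ (Th φ z) := by
  unfold V D Th
  simp only [mem_ofPred_eq, le_iInf_iff]
  refine and_congr_right fun _ => forall_congr' fun y => forall_congr' fun _ => ?_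
  exact (ENNReal.ofReal_le_ofReal_iff (ed_nonneg _ _)).symm

lemma continuous_gs (hφ : ContDiff ℝ 1 φ) : Continuous (gs φ) := by
  unfold gs
  exact continuous_finsetSum _ fun i _ => (continuous_pd hφ).pow 2

lemma continuous_wn (hφ : ContDiff ℝ 1 φ) : Continuous (wn φ) :=
  Real.continuous_sqrt.comp (continuous_gs hφ)

lemma measurable_nu (hφ : ContDiff ℝ 1 φ) (i : Fin n) : Measurable (nu φ i) :=
  (continuous_pd hφ).measurable.div (continuous_wn hφ).measurable

lemma measurable_Th (hφ : ContDiff ℝ 1 φ) : Measurable (Th φ) := by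
  refine Measurable.prodMk ?_ (hφ.continuous.measurable.comp measurable_fst)
  rw [measurable_pi_iff]
  intro i
  exact ((measurable_pi_apply i).comp measurable_fst).add
    (measurable_snd.mul ((measurable_nu hφ i).comp measurable_fst))

theorem measurableSet_V (hφ : ContDiff ℝ 1 φ) : MeasurableSet (V φ) := by
  have : V φ = {z | 0 < gs φ z.1} ∩ {z | ENNReal.ofReal |z.2| ≤ D φ (Th φ z)} := by
    ext z; exact mem_V_iff
  rw [this]
  refine MeasurableSet.inter ?_ ?_
  · exact measurableSet_lt measurable_const ((continuous_gs hφ).measurable.comp measurable_fst)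
  · exact measurableSet_le (by fun_prop) ((measurable_D hφ.continuous).comp (measurable_Th hφ))

theorem V0_eq : V0 φ = ⋃ k : ℕ, (fun z : (Fin n → ℝ) × ℝ =>
    (z.1, (1 + 1 / ((k : ℝ) + 1)) * z.2)) ⁻¹' V φ := by
  ext ⟨x, t⟩
  simp only [mem_iUnion, mem_preimage]
  constructor
  · rintro ⟨a, ha, h⟩
    obtain ⟨k, hk⟩ := exists_nat_one_div_lt (show 0 < a - 1 by linarith)
    refine ⟨k, ?_⟩
    have hk0 : 0 < 1 / ((k : ℝ) + 1) := by positivity
    have ha0 : 0 < a := by linarith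
    have := mem_V_scale (b := (1 + 1 / ((k : ℝ) + 1)) / a) h (by positivity)
      (by rw [div_le_one ha0]; linarith)
    rwa [← mul_assoc, div_mul_cancel₀ _ ha0.ne'] at this
  · rintro ⟨k, hk⟩
    have hk0 : 0 < 1 / ((k : ℝ) + 1) := by positivity
    exact ⟨_, by linarith, hk⟩

theorem measurableSet_V0 (hφ : ContDiff ℝ 1 φ) : MeasurableSet (V0 φ) := by
  rw [V0_eq]
  refine MeasurableSet.iUnion fun k => ?_
  exact (by fun_prop : Measurable fun z : (Fin n → ℝ) × ℝ =>
    (z.1, (1 + 1 / ((k : ℝ) + 1)) * z.2)) (measurableSet_V hφ)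

theorem volume_V_diff_V0 (hφ : ContDiff ℝ 1 φ) : volume (V φ \ V0 φ) = 0 := by
  rw [Measure.volume_eq_prod, Measure.measure_prod_null
    ((measurableSet_V hφ).diff (measurableSet_V0 hφ))]
  refine Eventually.of_forall fun x => ?_
  have hsub : Prod.mk x ⁻¹' (V φ \ V0 φ) ⊆
      (Prod.mk x ⁻¹' (V φ \ V0 φ) ∩ Ioi 0) ∪ (Prod.mk x ⁻¹' (V φ \ V0 φ) ∩ Iio 0) := by
    intro t ht
    rcases lt_trichotomy t 0 with h | h | h
    · exact Or.inr ⟨ht, h⟩
    · subst h; exact absurd (zero_mem_V0 ht.1.1) ht.2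
    · exact Or.inl ⟨ht, h⟩
  have h1 : (Prod.mk x ⁻¹' (V φ \ V0 φ) ∩ Ioi 0).Subsingleton := by
    intro s hs t ht
    rcases lt_trichotomy s t with h | h | h
    · exact absurd (mem_V0_of_lt ht.1.1 (Or.inl ⟨hs.2, h⟩)) hs.1.2
    · exact h
    · exact absurd (mem_V0_of_lt hs.1.1 (Or.inl ⟨ht.2, h⟩)) ht.1.2
  have h2 : (Prod.mk x ⁻¹' (V φ \ V0 φ) ∩ Iio 0).Subsingleton := by
    intro s hs t ht
    rcases lt_trichotomy s t with h | h | h
    · exact absurd (mem_V0_of_lt hs.1.1 (Or.inr ⟨h, ht.2⟩)) ht.1.2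
    · exact h
    · exact absurd (mem_V0_of_lt ht.1.1 (Or.inr ⟨h, hs.2⟩)) hs.1.2
  exact measure_mono_null hsub (measure_union_null (h1.measure_zero _) (h2.measure_zero _))

end Vale.Agent.P134.H377
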